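import Mathlib

/-!
Some scalar shift of a Lipschitz map keeps positive measure.
-/

namespace Vale.Agent.P127

open MeasureTheory MeasureTheory.Measure Filter Set Module
open scoped NNReal ENNReal Topology

variable {E : Type*} [NormedAddCommGroup E] [NormedSpace ℝ E] [FiniteDimensional ℝ E]
  [MeasurableSpace E] [BorelSpace E]

/-- A map whose derivative within a set is everywhere invertible does not squash the set. -/
theorem image_ne_zero (μ : Measure E) [μ.IsAddHaarMeasure] {f : E → E} {s : Set E}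
    {f' : E → E →L[ℝ] E} (hf : ∀ x ∈ s, HasFDerivWithinAt f (f' x) s x)
    (hd : ∀ x ∈ s, (f' x).det ≠ 0) (hs : μ s ≠ 0) : μ (f '' s) ≠ 0 := by
  have hr : ∀ A : E →L[ℝ] E, ∃ δ : ℝ≥0, δ ≠ 0 ∧ (A.det ≠ 0 →
      ∀ t : Set E, ApproximatesLinearOn f A t δ →
        (Real.toNNReal (|A.det| / 2) : ℝ≥0∞) * μ t ≤ μ (f '' t)) := by
    intro A
    by_cases hA : A.det = 0
    · exact ⟨1, one_ne_zero, fun h => absurd hA h⟩
    · have hm : (Real.toNNReal (|A.det| / 2) : ℝ≥0∞) < ENNReal.ofReal |A.det| :=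
        ENNReal.ofReal_lt_ofReal_iff'.2 ⟨by linarith [abs_pos.2 hA], abs_pos.2 hA⟩
      obtain ⟨δ, hδ, hpos⟩ :=
        ((mul_le_addHaar_image_of_lt_det μ A hm).and self_mem_nhdsWithin).exists
      exact ⟨δ, ne_of_gt hpos, fun _ t ht => hδ t f ht⟩
  choose r hr0 hr1 using hr
  obtain ⟨t, A, -, -, hst, happ, hA⟩ :=
    exists_partition_approximatesLinearOn_of_hasFDerivWithinAt f s f' hf r hr0
  intro h0
  refine hs (measure_mono_null (subset_inter Subset.rfl hst) ?_)
  rw [inter_iUnion]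
  refine measure_iUnion_null fun n => ?_
  by_contra hne
  obtain ⟨y, hy, hAy⟩ := hA (nonempty_of_measure_ne_zero hs) n
  have hdet : (A n).det ≠ 0 := hAy ▸ hd y hy
  have h := hr1 (A n) hdet _ (happ n)
  rw [measure_mono_null (image_mono inter_subset_left) h0, nonpos_iff_eq_zero, mul_eq_zero] at h
  rcases h with h | h
  · rw [ENNReal.coe_eq_zero, Real.toNNReal_eq_zero] at h
    linarith [abs_pos.2 hdet]
  · exact hne h

/-- For an injective sequence of scalars some shift `x ↦ g x + c j • x` of a Lipschitz map sends a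
set of positive measure to a set of positive measure. -/
theorem exists_shift (μ : Measure E) [μ.IsAddHaarMeasure] {g : E → E} {C : ℝ≥0}
    (hg : LipschitzWith C g) {c : ℕ → ℝ} (hc : Function.Injective c) {s : Set E} (hs : μ s ≠ 0) :
    ∃ j, μ ((fun x => g x + c j • x) '' s) ≠ 0 := by
  by_contra! h
  have hpiece : ∀ j, μ {x ∈ s | DifferentiableAt ℝ g x ∧
      (fderiv ℝ g x + c j • ContinuousLinearMap.id ℝ E).det ≠ 0} = 0 := by
    intro j
    by_contra hne
    refine image_ne_zero μ (f := fun x => g x + c j • x)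
      (f' := fun x => fderiv ℝ g x + c j • ContinuousLinearMap.id ℝ E) (fun x hx => ?_)
      (fun x hx => hx.2.2) hne (measure_mono_null (image_mono fun x hx => hx.1) (h j))
    exact (hx.2.1.hasFDerivAt.add ((hasFDerivAt_id x).const_smul (c j))).hasFDerivWithinAt
  refine hs (measure_mono_null ?_
    (measure_union_null (hg.ae_differentiableAt (μ := μ)) (measure_iUnion_null hpiece)))
  intro x hx
  by_cases hd : DifferentiableAt ℝ g x
  · obtain ⟨j, hj⟩ : ∃ j, (fderiv ℝ g x + c j • ContinuousLinearMap.id ℝ E).det ≠ 0 := by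
      by_contra! hall
      have hev : ∀ j, Module.End.HasEigenvalue (fderiv ℝ g x).toLinearMap (-c j) := by
        intro j
        rw [Module.End.hasEigenvalue_iff]
        have hlt := LinearMap.bot_lt_ker_of_det_eq_zero (hall j)
        intro hbot
        refine hlt.ne' ?_
        rw [eq_bot_iff]
        intro v hv
        have hv' : v ∈ Module.End.eigenspace (fderiv ℝ g x).toLinearMap (-c j) := by
          rw [Module.End.mem_eigenspace_iff, neg_smul]
          exact eq_neg_of_add_eq_zero_left (by simpa using LinearMap.mem_ker.1 hv)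
        rwa [hbot] at hv'
      exact Set.infinite_range_of_injective (neg_injective.comp hc)
        ((Module.End.finite_hasEigenvalue _).subset (by rintro _ ⟨j, rfl⟩; exact hev j))
    exact Or.inr (mem_iUnion.2 ⟨j, hx, hd, hj⟩)
  · exact Or.inl hd

/-- Normalisation is Lipschitz away from the origin. -/
theorem lipschitzOnWith_normalize {ε : ℝ} (hε : 0 < ε) :
    LipschitzOnWith (Real.toNNReal (2 / ε)) (fun x : E => ‖x‖⁻¹ • x) {x | ε ≤ ‖x‖} := by
  refine LipschitzOnWith.of_dist_le_mul fun x hx y hy => ?_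
  have hx0 : 0 < ‖x‖ := hε.trans_le hx
  have hy0 : 0 < ‖y‖ := hε.trans_le hy
  rw [Real.coe_toNNReal _ (by positivity), dist_eq_norm, dist_eq_norm,
    show ‖x‖⁻¹ • x - ‖y‖⁻¹ • y = ‖x‖⁻¹ • (x - y) + (‖x‖⁻¹ - ‖y‖⁻¹) • y by
      rw [smul_sub, sub_smul]; abel]
  have h1 : ‖‖x‖⁻¹ • (x - y)‖ ≤ ε⁻¹ * ‖x - y‖ := by
    rw [norm_smul, norm_inv, norm_norm]
    exact mul_le_mul_of_nonneg_right (inv_anti₀ hε hx) (norm_nonneg _)
  have h2 : ‖(‖x‖⁻¹ - ‖y‖⁻¹) • y‖ ≤ ε⁻¹ * ‖x - y‖ := by
    rw [norm_smul, Real.norm_eq_abs, inv_sub_inv hx0.ne' hy0.ne', abs_div,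
      abs_of_pos (mul_pos hx0 hy0), div_mul_eq_mul_div, mul_div_mul_right _ _ hy0.ne',
      div_eq_mul_inv, mul_comm ε⁻¹]
    refine mul_le_mul ?_ (inv_anti₀ hε hx) (by positivity) (norm_nonneg _)
    rw [norm_sub_rev]
    exact abs_norm_sub_norm_le y x
  calc _ ≤ _ := norm_add_le _ _
    _ ≤ ε⁻¹ * ‖x - y‖ + ε⁻¹ * ‖x - y‖ := add_le_add h1 h2
    _ = 2 / ε * ‖x - y‖ := by ring

end Vale.Agent.P127
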